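import Vale.Agent.Lib.P173.Setup

/-!
# P173, part K: from the flag complex to the order complex of the poset of cliques

Barycentric subdivision, by hand, in degrees 0, 1, 2.
-/

namespace Vale.Agent.P173

namespace ColGraph

variable (K : ColGraph)

open scoped Classical

/-- one vertex -/
def sg (v : K.V) : K.Clq := ⟨{v}, Finset.singleton_nonempty v, fun _ ha _ hb hab =>
  absurd ((Finset.mem_singleton.1 ha).trans (Finset.mem_singleton.1 hb).symm) hab⟩

/-- two adjacent vertices -/
noncomputable def pr (v w : K.V) (h : K.adj v w) : K.Clq := ⟨{v, w}, Finset.insert_nonempty v {w}, by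
  intro a ha b hb hab
  simp only [Finset.mem_insert, Finset.mem_singleton] at ha hb
  rcases ha with rfl | rfl <;> rcases hb with rfl | rfl
  · exact absurd rfl hab
  · exact h
  · exact K.symm _ _ h
  · exact absurd rfl hab⟩

/-- three pairwise adjacent vertices -/
noncomputable def tr (u v w : K.V) (h1 : K.adj u v) (h2 : K.adj v w) (h3 : K.adj u w) : K.Clq :=
  ⟨{u, v, w}, Finset.insert_nonempty u {v, w}, by
  intro a ha b hb hab
  simp only [Finset.mem_insert, Finset.mem_singleton] at ha hb
  rcases ha with rfl | rfl | rfl <;> rcases hb with rfl | rfl | rfl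
  · exact absurd rfl hab
  · exact h1
  · exact h3
  · exact K.symm _ _ h1
  · exact absurd rfl hab
  · exact h2
  · exact K.symm _ _ h3
  · exact K.symm _ _ h2
  · exact absurd rfl hab⟩

variable {K}

lemma clq_col_inj {s : K.Clq} {v w : K.V} (hv : v ∈ s.1) (hw : w ∈ s.1) (h : K.col v = K.col w) :
    v = w := by
  by_contra hne
  exact K.proper v w (s.2.2 v hv w hw hne) h

lemma sg_lt_pr {v w : K.V} (h : K.adj v w) : K.lt (K.sg v) (K.pr v w h) := by
  have hne := K.ne_of_adj h
  refine Finset.ssubset_iff_subset_ne.2 ⟨?_, ?_⟩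
  · intro a ha
    have := Finset.mem_singleton.1 ha
    subst this
    exact Finset.mem_insert_self _ _
  · intro he
    have hw : w ∈ (K.sg v).1 := by
      rw [he]
      exact Finset.mem_insert_of_mem (Finset.mem_singleton_self w)
    exact hne (Finset.mem_singleton.1 hw).symm

lemma pr_symm {v w : K.V} (h : K.adj v w) (h' : K.adj w v) : K.pr v w h = K.pr w v h' :=
  Subtype.ext (Finset.pair_comm v w)

lemma sg_lt_pr' {v w : K.V} (h : K.adj v w) : K.lt (K.sg w) (K.pr v w h) := by
  rw [pr_symm h (K.symm _ _ h)]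
  exact sg_lt_pr _

/-- `{v} = s` or `{v} < s` -/
lemma sg_eq_or_lt {s : K.Clq} {v : K.V} (hv : v ∈ s.1) : s = K.sg v ∨ K.lt (K.sg v) s := by
  rcases (Finset.singleton_subset_iff.2 hv).eq_or_ssubset with h | h
  · exact Or.inl (Subtype.ext h.symm)
  · exact Or.inr h

/-- `{v, w} = s` or `{v, w} < s` -/
lemma pr_eq_or_lt {s : K.Clq} {v w : K.V} (h : K.adj v w) (hv : v ∈ s.1) (hw : w ∈ s.1) :
    s = K.pr v w h ∨ K.lt (K.pr v w h) s := by
  have hsub : (K.pr v w h).1 ⊆ s.1 := by
    intro a ha
    simp only [pr, Finset.mem_insert, Finset.mem_singleton] at ha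
    rcases ha with rfl | rfl
    · exact hv
    · exact hw
  rcases hsub.eq_or_ssubset with h | h
  · exact Or.inl (Subtype.ext h.symm)
  · exact Or.inr h

theorem flagH0_H0 (hK : K.FlagH0) : K.H0 := by
  intro B _ f hf
  have hφ := hK B (fun v => f (K.sg v)) (fun v w h => by
    rw [hf _ _ (sg_lt_pr h), ← hf _ _ (sg_lt_pr' h)])
  have key : ∀ (s : K.Clq) (v : K.V), v ∈ s.1 → f (K.sg v) = f s := by
    intro s v hv
    rcases sg_eq_or_lt hv with h | h
    · rw [h]
    · exact hf _ _ h
  intro s t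
  obtain ⟨v, hv⟩ := s.2.1
  obtain ⟨w, hw⟩ := t.2.1
  rw [← key s v hv, ← key t w hw]
  exact hφ v w

theorem flagH1_H1 (hK : K.FlagH1) : K.H1 := by
  intro B _ g hg
  -- the cochain on edges
  let c : K.V → K.V → B := fun v w =>
    if h : K.adj v w then g (K.sg v) (K.pr v w h) - g (K.sg w) (K.pr v w h) else 0
  have hc : ∀ v w (h : K.adj v w), c v w = g (K.sg v) (K.pr v w h) - g (K.sg w) (K.pr v w h) :=
    fun v w h => dif_pos h
  -- formula with a larger clique
  have hc' : ∀ (s : K.Clq) (v w : K.V), K.adj v w → v ∈ s.1 → w ∈ s.1 →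
      c v w = g (K.sg v) s - g (K.sg w) s := by
    intro s v w h hv hw
    rw [hc v w h]
    rcases pr_eq_or_lt h hv hw with hs | hs
    · rw [hs]
    · rw [hg _ _ _ (sg_lt_pr h) hs, hg _ _ _ (sg_lt_pr' h) hs]
      abel
  obtain ⟨φ, hφ⟩ := hK B c (fun v w h => by
      rw [hc v w h, hc w v (K.symm _ _ h), pr_symm (K.symm _ _ h) h]
      abel) (fun u v w h1 h2 h3 => by
      have hu : u ∈ (K.tr u v w h1 h2 h3).1 := by simp [tr]
      have hv : v ∈ (K.tr u v w h1 h2 h3).1 := by simp [tr]
      have hw : w ∈ (K.tr u v w h1 h2 h3).1 := by simp [tr]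
      rw [hc' _ u v h1 hu hv, hc' _ v w h2 hv hw, hc' _ u w h3 hu hw]
      abel)
  let G : K.V → K.Clq → B := fun v s => if s = K.sg v then 0 else g (K.sg v) s
  have hG0 : ∀ v, G v (K.sg v) = 0 := fun v => if_pos rfl
  have hG1 : ∀ v s, K.lt (K.sg v) s → G v s = g (K.sg v) s := by
    intro v s h
    refine if_neg ?_
    rintro rfl
    exact (ssubset_irrefl _) h
  have hind : ∀ (s : K.Clq) (v w : K.V), v ∈ s.1 → w ∈ s.1 → φ v + G v s = φ w + G w s := by
    intro s v w hv hw
    by_cases hvw : v = w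
    · rw [hvw]
    · have h := s.2.2 v hv w hw hvw
      have hlt : ∀ x, x = v ∨ x = w → K.lt (K.sg x) s := by
        intro x hx
        rcases pr_eq_or_lt h hv hw with hs | hs
        · rw [hs]
          rcases hx with rfl | rfl
          · exact sg_lt_pr h
          · exact sg_lt_pr' h
        · rcases hx with rfl | rfl
          · exact (sg_lt_pr h).trans hs
          · exact (sg_lt_pr' h).trans hs
      rw [hG1 v s (hlt v (Or.inl rfl)), hG1 w s (hlt w (Or.inr rfl))]
      have e1 := hφ v w h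
      rw [hc' s v w h hv hw] at e1
      have e2 : φ v + g (K.sg v) s - (φ w + g (K.sg w) s) = 0 := by
        have : φ v + g (K.sg v) s - (φ w + g (K.sg w) s) =
            (g (K.sg v) s - g (K.sg w) s) - (φ w - φ v) := by abel
        rw [this, e1, sub_self]
      exact sub_eq_zero.1 e2
  refine ⟨fun s => φ (s.2.1.choose) + G (s.2.1.choose) s, ?_⟩
  intro s t hst
  have hs := s.2.1.choose_spec
  have ht := t.2.1.choose_spec
  have hst' : s.2.1.choose ∈ t.1 := hst.1 hs
  show g s t = φ (t.2.1.choose) + G (t.2.1.choose) t - (φ (s.2.1.choose) + G (s.2.1.choose) s)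
  rw [hind t _ _ ht hst']
  generalize s.2.1.choose = v at hs hst' ⊢
  have hvt : K.lt (K.sg v) t := by
    rcases sg_eq_or_lt hs with h | h
    · rw [← h]
      exact hst
    · exact h.trans hst
  rw [hG1 v t hvt]
  rcases sg_eq_or_lt hs with h | h
  · rw [h, hG0 v]
    abel
  · rw [hG1 v s h, hg _ _ _ h hst]
    abel

/-- the clique of a triangle -/
noncomputable def trc (T : K.Tri) : K.Clq :=
  K.tr (T.t 0) (T.t 1) (T.t 2) (T.adj 0 1 (by decide)) (T.adj 1 2 (by decide))
    (T.adj 0 2 (by decide))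

lemma mem_trc (T : K.Tri) (v : K.V) : v ∈ (trc T).1 ↔ ∃ i, T.t i = v := by
  simp only [trc, tr, Finset.mem_insert, Finset.mem_singleton]
  constructor
  · rintro (h | h | h)
    · exact ⟨0, h.symm⟩
    · exact ⟨1, h.symm⟩
    · exact ⟨2, h.symm⟩
  · rintro ⟨i, h⟩
    fin_cases i
    · exact Or.inl h.symm
    · exact Or.inr (Or.inl h.symm)
    · exact Or.inr (Or.inr h.symm)

lemma tri_ext {T T' : K.Tri} (h : trc T = trc T') : T = T' := by
  have h1 : T.t = T'.t := by
    funext i
    have h2 : T.t i ∈ (trc T).1 := (mem_trc T _).2 ⟨i, rfl⟩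
    have h3 : T'.t i ∈ (trc T).1 := by
      rw [h]
      exact (mem_trc T' _).2 ⟨i, rfl⟩
    exact clq_col_inj h2 h3 ((T.col_eq i).trans (T'.col_eq i).symm)
  cases T
  cases T'
  cases h1
  rfl

/-- colours of a clique -/
noncomputable def cs (s : K.Clq) : Finset (Fin 3) := s.1.image K.col

lemma cs_card (s : K.Clq) : (cs s).card = s.1.card :=
  Finset.card_image_of_injOn fun _ hv _ hw h => clq_col_inj hv hw h

lemma cs_sg (v : K.V) : cs (K.sg v) = {K.col v} := by
  simp [cs, sg]

lemma cs_pr {v w : K.V} (h : K.adj v w) : cs (K.pr v w h) = {K.col v, K.col w} := by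
  simp [cs, pr, Finset.image_insert]

/-- a chain of three cliques comes from a triangle -/
lemma chain_tri {s t u : K.Clq} (h1 : K.lt s t) (h2 : K.lt t u) :
    ∃ (T : K.Tri) (i j : Fin 3) (hij : i ≠ j), s = K.sg (T.t i) ∧
      t = K.pr (T.t i) (T.t j) (T.adj i j hij) ∧ u = trc T := by
  have c1 : s.1.card < t.1.card := Finset.card_lt_card h1
  have c2 : t.1.card < u.1.card := Finset.card_lt_card h2
  have c0 : 0 < s.1.card := Finset.card_pos.2 s.2.1
  have c3 : u.1.card ≤ 3 := by
    rw [← cs_card]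
    exact (Finset.card_le_univ _).trans (by simp)
  have hs : s.1.card = 1 := by omega
  have ht : t.1.card = 2 := by omega
  have hu : u.1.card = 3 := by omega
  have huniv : cs u = Finset.univ := by
    rw [← Finset.card_eq_iff_eq_univ, cs_card, hu]
    rfl
  have hex : ∀ i : Fin 3, ∃ v ∈ u.1, K.col v = i := by
    intro i
    have : i ∈ cs u := by rw [huniv]; exact Finset.mem_univ i
    simpa [cs] using this
  choose t' ht' hcol using hex
  let T : K.Tri := ⟨t', hcol, fun i j hij => u.2.2 _ (ht' i) _ (ht' j) (by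
    intro h
    apply hij
    rw [← hcol i, ← hcol j, h])⟩
  have hT : ∀ v ∈ u.1, T.t (K.col v) = v := fun v hv => clq_col_inj (ht' _) hv (hcol _)
  obtain ⟨v, hv⟩ := Finset.card_eq_one.1 hs
  have hvt : v ∈ t.1 := h1.1 (by rw [hv]; exact Finset.mem_singleton_self v)
  have hvu : v ∈ u.1 := h2.1 hvt
  obtain ⟨w, hwt, hwv⟩ : ∃ w ∈ t.1, w ≠ v := by
    by_contra hcon
    push Not at hcon
    have : t.1 ⊆ {v} := fun x hx => Finset.mem_singleton.2 (hcon x hx)
    have := Finset.card_le_card this
    simp at this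
    omega
  have hwu : w ∈ u.1 := h2.1 hwt
  have hvw : K.adj v w := t.2.2 v hvt w hwt (Ne.symm hwv)
  refine ⟨T, K.col v, K.col w, K.proper v w hvw, ?_, ?_, ?_⟩
  · rw [hT v hvu]
    exact Subtype.ext hv
  · have e : (K.pr v w hvw) = t := by
      apply Subtype.ext
      refine Finset.eq_of_subset_of_card_le ?_ ?_
      · intro x hx
        simp only [pr, Finset.mem_insert, Finset.mem_singleton] at hx
        rcases hx with rfl | rfl
        · exact hvt
        · exact hwt
      · rw [ht]
        show 2 ≤ ({v, w} : Finset K.V).card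
        rw [Finset.card_pair (Ne.symm hwv)]
    rw [← e]
    apply Subtype.ext
    show ({v, w} : Finset K.V) = {T.t (K.col v), T.t (K.col w)}
    rw [hT v hvu, hT w hwu]
  · apply Subtype.ext
    refine (Finset.eq_of_subset_of_card_le ?_ ?_).symm
    · intro x hx
      obtain ⟨i, hi⟩ := (mem_trc T x).1 hx
      rw [← hi]
      exact ht' i
    · rw [hu]
      have hcard : (cs (trc T)).card = (trc T).1.card := cs_card _
      rw [← hcard]
      have : cs (trc T) = Finset.univ := by
        rw [Finset.eq_univ_iff_forall]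
        intro i
        simp only [cs, Finset.mem_image]
        exact ⟨T.t i, (mem_trc T _).2 ⟨i, rfl⟩, hcol i⟩
      rw [this]
      rfl

theorem flagH2_H2 (hK : K.FlagH2) : K.H2 := by
  intro B _ h
  -- values of `h` on the flags of a triangle
  let hh : K.Tri → Fin 3 → Fin 3 → B := fun T i j =>
    if hij : i ≠ j then h (K.sg (T.t i)) (K.pr (T.t i) (T.t j) (T.adj i j hij)) (trc T) else 0
  have hhh : ∀ (T : K.Tri) (i j : Fin 3) (hij : i ≠ j),
      hh T i j = h (K.sg (T.t i)) (K.pr (T.t i) (T.t j) (T.adj i j hij)) (trc T) :=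
    fun T i j hij => dif_pos hij
  obtain ⟨γ, hγ⟩ := hK B (fun T => hh T 0 1 - hh T 1 0 + hh T 1 2 - hh T 2 1 + hh T 2 0 - hh T 0 2)
  -- values on pairs
  have hpair : ∀ t : K.Clq, ∃ φ : Finset (Fin 3) → B, ∀ (a b : K.V) (hab : K.adj a b),
      K.col a < K.col b → t = K.pr a b hab → φ {K.col a} = γ a b ∧ φ {K.col b} = 0 := by
    intro t
    by_cases hex : ∃ (a b : K.V) (hab : K.adj a b), K.col a < K.col b ∧ t = K.pr a b hab
    · obtain ⟨a, b, hab, hlt, ht⟩ := hex
      refine ⟨fun C => if C = {K.col a} then γ a b else 0, ?_⟩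
      intro a' b' hab' hlt' ht'
      have hmem : ∀ x, x ∈ t.1 ↔ x = a ∨ x = b := by
        intro x
        rw [ht]
        simp [pr]
      have hmem' : ∀ x, x ∈ t.1 ↔ x = a' ∨ x = b' := by
        intro x
        rw [ht']
        simp [pr]
      have ha : a' = a := by
        rcases (hmem a').1 ((hmem' a').2 (Or.inl rfl)) with e | e
        · exact e
        · rcases (hmem b').1 ((hmem' b').2 (Or.inr rfl)) with e' | e'
          · subst e e'
            exact absurd (hlt.trans hlt') (lt_irrefl _)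
          · subst e e'
            exact absurd hlt' (lt_irrefl _)
      subst ha
      have hb : b' = b := by
        rcases (hmem b').1 ((hmem' b').2 (Or.inr rfl)) with e | e
        · subst e
          exact absurd hlt' (lt_irrefl _)
        · exact e
      subst hb
      refine ⟨if_pos rfl, if_neg ?_⟩
      intro he
      exact (ne_of_gt hlt) (Finset.singleton_injective he)
    · refine ⟨fun _ => 0, ?_⟩
      intro a b hab hlt ht
      exact absurd ⟨a, b, hab, hlt, ht⟩ hex
  choose φ hφ using hpair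
  -- the value of `g` on `{T i} < {T i, T j}`
  let e : K.Tri → Fin 3 → Fin 3 → B := fun T i j => if i < j then γ (T.t i) (T.t j) else 0
  have he : ∀ (T : K.Tri) (i j : Fin 3) (hij : i ≠ j),
      φ (K.pr (T.t i) (T.t j) (T.adj i j hij)) {i} = e T i j := by
    intro T i j hij
    rcases lt_or_gt_of_ne hij with hlt | hlt
    · have := (hφ _ (T.t i) (T.t j) (T.adj i j hij) (by rw [T.col_eq, T.col_eq]; exact hlt) rfl).1
      rw [T.col_eq] at this
      rw [this]
      exact (if_pos hlt).symm
    · have := (hφ _ (T.t j) (T.t i) (T.adj j i hij.symm)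
        (by rw [T.col_eq, T.col_eq]; exact hlt) rfl).2
      rw [T.col_eq] at this
      rw [pr_symm (T.adj i j hij) (T.adj j i hij.symm), this]
      exact (if_neg (not_lt.2 hlt.le)).symm
  -- values on triangles
  have htri : ∀ u : K.Clq, ∃ ψ : Finset (Fin 3) → B, ∀ T : K.Tri, u = trc T →
      ∀ i j, i ≠ j → hh T i j = e T i j + ψ {i, j} - ψ {i} := by
    intro u
    by_cases hex : ∃ T : K.Tri, u = trc T
    · obtain ⟨T, hT⟩ := hex
      let D : Fin 3 → Fin 3 → B := fun i j => hh T i j - e T i j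
      refine ⟨fun C => if C = {0} then 0 else if C = {0, 1} then D 0 1 else if C = {1} then
        D 0 1 - D 1 0 else if C = {1, 2} then D 0 1 - D 1 0 + D 1 2 else if C = {2} then
        D 0 1 - D 1 0 + D 1 2 - D 2 1 else D 0 1 - D 1 0 + D 1 2 - D 2 1 + D 2 0, ?_⟩
      intro T' hT' i j hij
      obtain rfl : T = T' := tri_ext (hT.symm.trans hT')
      have hsum : D 0 1 - D 1 0 + D 1 2 - D 2 1 + D 2 0 - D 0 2 = 0 := by
        have h1 := hγ T
        have e01 : e T 0 1 = γ (T.t 0) (T.t 1) := rfl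
        have e12 : e T 1 2 = γ (T.t 1) (T.t 2) := rfl
        have e02 : e T 0 2 = γ (T.t 0) (T.t 2) := rfl
        have e10 : e T 1 0 = 0 := rfl
        have e21 : e T 2 1 = 0 := rfl
        have e20 : e T 2 0 = 0 := rfl
        simp only [D, e01, e12, e02, e10, e21, e20]
        have h2 : hh T 0 1 - γ (T.t 0) (T.t 1) - (hh T 1 0 - 0) + (hh T 1 2 - γ (T.t 1) (T.t 2)) -
            (hh T 2 1 - 0) + (hh T 2 0 - 0) - (hh T 0 2 - γ (T.t 0) (T.t 2)) =
            (hh T 0 1 - hh T 1 0 + hh T 1 2 - hh T 2 1 + hh T 2 0 - hh T 0 2) -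
            (γ (T.t 0) (T.t 1) + γ (T.t 1) (T.t 2) - γ (T.t 0) (T.t 2)) := by abel
        rw [h2, h1, sub_self]
      have hD : ∀ i j, hh T i j = e T i j + D i j := fun i j => by
        simp only [D]
        abel
      rw [hD i j]
      have hgoal : ∀ x y : B, D i j = x - y → e T i j + D i j = e T i j + x - y := by
        intro x y hxy
        rw [hxy]
        abel
      apply hgoal
      have hlast : D 0 1 - D 1 0 + D 1 2 - D 2 1 + D 2 0 = D 0 2 := sub_eq_zero.1 hsum
      fin_cases i <;> fin_cases j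
      · exact absurd rfl hij
      · show D 0 1 = D 0 1 - 0
        abel
      · show D 0 2 = (D 0 1 - D 1 0 + D 1 2 - D 2 1 + D 2 0) - 0
        rw [hlast, sub_zero]
      · show D 1 0 = D 0 1 - (D 0 1 - D 1 0)
        abel
      · exact absurd rfl hij
      · show D 1 2 = (D 0 1 - D 1 0 + D 1 2) - (D 0 1 - D 1 0)
        abel
      · show D 2 0 = (D 0 1 - D 1 0 + D 1 2 - D 2 1 + D 2 0) - (D 0 1 - D 1 0 + D 1 2 - D 2 1)
        abel
      · show D 2 1 = (D 0 1 - D 1 0 + D 1 2) - (D 0 1 - D 1 0 + D 1 2 - D 2 1)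
        abel
      · exact absurd rfl hij
    · refine ⟨fun _ => 0, ?_⟩
      intro T hT
      exact absurd ⟨T, hT⟩ hex
  choose ψ hψ using htri
  refine ⟨fun s t => if t.1.card = 3 then ψ t (cs s) else φ t (cs s), ?_⟩
  intro s t u hst htu
  obtain ⟨T, i, j, hij, rfl, rfl, rfl⟩ := chain_tri hst htu
  have c2 : (K.pr (T.t i) (T.t j) (T.adj i j hij)).1.card = 2 :=
    Finset.card_pair (K.ne_of_adj (T.adj i j hij))
  have c3 : (trc T).1.card = 3 := by
    have h1 : (trc T).1.card = (cs (trc T)).card := (cs_card _).symm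
    rw [h1]
    have : cs (trc T) = Finset.univ := by
      rw [Finset.eq_univ_iff_forall]
      intro i
      simp only [cs, Finset.mem_image]
      exact ⟨T.t i, (mem_trc T _).2 ⟨i, rfl⟩, T.col_eq i⟩
    rw [this]
    rfl
  show h _ _ _ = (if _ then _ else _) + (if _ then _ else _) - (if _ then _ else _)
  rw [if_neg (by rw [c2]; decide), if_pos c3, if_pos c3, cs_sg, cs_pr, T.col_eq, T.col_eq,
    he T i j hij, ← hhh T i j hij]
  exact hψ _ T rfl i j hij

end ColGraph

end Vale.Agent.P173
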