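import Vale.Agent.Lib.P173.Setup

/-!
# P173, part K: from the pentagonal complex to the flag complex of its subdivision
-/

namespace Vale.Agent.P173

namespace Penta

variable {X : Penta}

lemma inc_ve_iff (a : X.V0) (b : X.E0) :
    X.graph.adj (Sum.inl a) (Sum.inr (Sum.inl b)) ↔ (X.s b = a ∨ X.t b = a) := by
  constructor
  · rintro (h | h)
    · exact h
    · exact h.elim
  · exact fun h => Or.inl h

lemma inc_vf_iff (a : X.V0) (f : X.F0) :
    X.graph.adj (Sum.inl a) (Sum.inr (Sum.inr f)) ↔ ∃ k, X.fv f k = a := by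
  constructor
  · rintro (h | h)
    · exact h
    · exact h.elim
  · exact fun h => Or.inl h

lemma inc_ef_iff (b : X.E0) (f : X.F0) :
    X.graph.adj (Sum.inr (Sum.inl b)) (Sum.inr (Sum.inr f)) ↔ ∃ k, X.fe f k = b := by
  constructor
  · rintro (h | h)
    · exact h
    · exact h.elim
  · exact fun h => Or.inl h

/-- endpoints of the `k`-th edge of a face -/
lemma ends_fe (f : X.F0) (k : ZMod 5) :
    (X.o f k = true ∧ X.s (X.fe f k) = X.fv f k ∧ X.t (X.fe f k) = X.fv f (k + 1)) ∨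
    (X.o f k = false ∧ X.s (X.fe f k) = X.fv f (k + 1) ∧ X.t (X.fe f k) = X.fv f k) := by
  have h1 := X.s_fe f k
  have h2 := X.t_fe f k
  rcases hk : X.o f k with _ | _
  · rw [hk] at h1 h2
    exact Or.inr ⟨rfl, h1, h2⟩
  · rw [hk] at h1 h2
    exact Or.inl ⟨rfl, h1, h2⟩

lemma v_of_fe {f : X.F0} {k : ZMod 5} {a : X.V0} (h : X.s (X.fe f k) = a ∨ X.t (X.fe f k) = a) :
    a = X.fv f k ∨ a = X.fv f (k + 1) := by
  rcases ends_fe f k with ⟨_, e1, e2⟩ | ⟨_, e1, e2⟩ <;> rcases h with h | h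
  · exact Or.inl (h.symm.trans e1)
  · exact Or.inr (h.symm.trans e2)
  · exact Or.inr (h.symm.trans e1)
  · exact Or.inl (h.symm.trans e2)

lemma fe_v (f : X.F0) (k : ZMod 5) :
    (X.s (X.fe f k) = X.fv f k ∨ X.t (X.fe f k) = X.fv f k) ∧
      (X.s (X.fe f k) = X.fv f (k + 1) ∨ X.t (X.fe f k) = X.fv f (k + 1)) := by
  rcases ends_fe f k with ⟨_, e1, e2⟩ | ⟨_, e1, e2⟩
  · exact ⟨Or.inl e1, Or.inr e2⟩
  · exact ⟨Or.inr e2, Or.inl e1⟩

/-- the triangle of a flag -/
def flagTri (a : X.V0) (b : X.E0) (f : X.F0) (h1 : X.s b = a ∨ X.t b = a)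
    (h2 : ∃ k, X.fe f k = b) : X.graph.Tri where
  t i := (![Sum.inl a, Sum.inr (Sum.inl b), Sum.inr (Sum.inr f)] :
    Fin 3 → X.V0 ⊕ X.E0 ⊕ X.F0) i
  col_eq i := by
    fin_cases i <;> rfl
  adj i j hij := by
    have h3 : ∃ k, X.fv f k = a := by
      obtain ⟨k, rfl⟩ := h2
      rcases v_of_fe h1 with h | h
      · exact ⟨k, h.symm⟩
      · exact ⟨k + 1, h.symm⟩
    have e1 := (inc_ve_iff a b).2 h1
    have e2 := (inc_ef_iff b f).2 h2
    have e3 := (inc_vf_iff a f).2 h3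
    fin_cases i <;> fin_cases j
    · exact absurd rfl hij
    · exact e1
    · exact e3
    · exact X.graph.symm _ _ e1
    · exact absurd rfl hij
    · exact e2
    · exact X.graph.symm _ _ e3
    · exact X.graph.symm _ _ e2
    · exact absurd rfl hij

/-- every triangle is a flag -/
lemma tri_cases (T : X.graph.Tri) : ∃ (a : X.V0) (b : X.E0) (f : X.F0)
    (h1 : X.s b = a ∨ X.t b = a) (h2 : ∃ k, X.fe f k = b), T = flagTri a b f h1 h2 := by
  obtain ⟨t, hc, ha⟩ := T
  obtain ⟨a, h0⟩ : ∃ a, t 0 = Sum.inl a := by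
    have h := hc 0
    rcases h' : t 0 with a | b | f
    · exact ⟨a, rfl⟩
    · rw [h'] at h
      exact absurd (show (1 : Fin 3) = 0 from h) (by decide)
    · rw [h'] at h
      exact absurd (show (2 : Fin 3) = 0 from h) (by decide)
  obtain ⟨b, h1⟩ : ∃ b, t 1 = Sum.inr (Sum.inl b) := by
    have h := hc 1
    rcases h' : t 1 with a | b | f
    · rw [h'] at h
      exact absurd (show (0 : Fin 3) = 1 from h) (by decide)
    · exact ⟨b, rfl⟩
    · rw [h'] at h
      exact absurd (show (2 : Fin 3) = 1 from h) (by decide)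
  obtain ⟨f, h2⟩ : ∃ f, t 2 = Sum.inr (Sum.inr f) := by
    have h := hc 2
    rcases h' : t 2 with a | b | f
    · rw [h'] at h
      exact absurd (show (0 : Fin 3) = 2 from h) (by decide)
    · rw [h'] at h
      exact absurd (show (1 : Fin 3) = 2 from h) (by decide)
    · exact ⟨f, rfl⟩
  have e1 := ha 0 1 (by decide)
  have e2 := ha 1 2 (by decide)
  rw [h0, h1] at e1
  rw [h1, h2] at e2
  refine ⟨a, b, f, (inc_ve_iff a b).1 e1, (inc_ef_iff b f).1 e2, ?_⟩
  have ht : t = fun i => (![Sum.inl a, Sum.inr (Sum.inl b), Sum.inr (Sum.inr f)] :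
      Fin 3 → X.V0 ⊕ X.E0 ⊕ X.F0) i := by
    funext i
    fin_cases i
    · exact h0
    · exact h1
    · exact h2
  subst ht
  rfl

/-- a flag in the `k`-th edge of a face -/
lemma pure_of (hV : ∀ v : X.V0, ∃ f k, X.fv f k = v) (hE : ∀ e : X.E0, ∃ f k, X.fe f k = e) :
    X.graph.Pure := by
  have key : ∀ v w : X.graph.V, X.graph.adj v w → X.graph.col v < X.graph.col w →
      ∃ T : X.graph.Tri, T.t (X.graph.col v) = v ∧ T.t (X.graph.col w) = w := by
    rintro (a | b | f) (a' | b' | f') h hlt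
    · exact absurd hlt (by simp [graph, dim])
    · obtain ⟨f, k, hk⟩ := hE b'
      exact ⟨flagTri a b' f ((inc_ve_iff a b').1 h) ⟨k, hk⟩, rfl, rfl⟩
    · obtain ⟨k, hk⟩ := (inc_vf_iff a f').1 h
      subst hk
      exact ⟨flagTri (X.fv f' k) (X.fe f' k) f' (fe_v f' k).1 ⟨k, rfl⟩, rfl, rfl⟩
    · exact absurd hlt (by simp [graph, dim])
    · exact absurd hlt (by simp [graph, dim])
    · obtain ⟨k, hk⟩ := (inc_ef_iff b f').1 h
      subst hk
      exact ⟨flagTri (X.fv f' k) (X.fe f' k) f' (fe_v f' k).1 ⟨k, rfl⟩, rfl, rfl⟩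
    · exact absurd hlt (by simp [graph, dim])
    · exact absurd hlt (by simp [graph, dim])
    · exact absurd hlt (by simp [graph, dim])
  refine ⟨?_, ?_⟩
  · rintro (a | b | f)
    · obtain ⟨f, k, rfl⟩ := hV a
      exact ⟨flagTri (X.fv f k) (X.fe f k) f (fe_v f k).1 ⟨k, rfl⟩, rfl⟩
    · obtain ⟨f, k, rfl⟩ := hE b
      exact ⟨flagTri (X.fv f k) (X.fe f k) f (fe_v f k).1 ⟨k, rfl⟩, rfl⟩
    · exact ⟨flagTri (X.fv f 0) (X.fe f 0) f (fe_v f 0).1 ⟨0, rfl⟩, rfl⟩
  · intro v w h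
    rcases lt_or_gt_of_ne (X.graph.proper v w h) with hlt | hlt
    · exact key v w h hlt
    · obtain ⟨T, h1, h2⟩ := key w v (X.graph.symm _ _ h) hlt
      exact ⟨T, h2, h1⟩

theorem pure_graph (X : Penta) (hV : ∀ v : X.V0, ∃ f k, X.fv f k = v)
    (hE : ∀ e : X.E0, ∃ f k, X.fe f k = e) : X.graph.Pure := pure_of hV hE

theorem flagH0 (hX : X.PH0) : X.graph.FlagH0 := by
  intro B _ f hf
  have hs : ∀ e : X.E0, f (Sum.inl (X.s e)) = f (Sum.inr (Sum.inl e)) := fun e =>
    hf _ _ ((inc_ve_iff _ _).2 (Or.inl rfl))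
  have ht : ∀ e : X.E0, f (Sum.inl (X.t e)) = f (Sum.inr (Sum.inl e)) := fun e =>
    hf _ _ ((inc_ve_iff _ _).2 (Or.inr rfl))
  have h0 := hX B (fun x => f (Sum.inl x)) (fun e => (hs e).trans (ht e).symm)
  have key : ∀ v : X.graph.V, ∃ x : X.V0, f v = f (Sum.inl x) := by
    rintro (a | b | g)
    · exact ⟨a, rfl⟩
    · exact ⟨X.s b, (hs b).symm⟩
    · exact ⟨X.fv g 0, (hf _ _ ((inc_vf_iff _ _).2 ⟨0, rfl⟩)).symm⟩
  intro v w
  obtain ⟨x, hx⟩ := key v
  obtain ⟨y, hy⟩ := key w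
  rw [hx, hy]
  exact h0 x y

lemma bsum_expand {B : Type} [AddCommGroup B] (c : X.E0 → B) (f : X.F0) :
    X.bsum c f = (if X.o f 0 then c (X.fe f 0) else -c (X.fe f 0)) +
      ((if X.o f 1 then c (X.fe f 1) else -c (X.fe f 1)) +
      ((if X.o f 2 then c (X.fe f 2) else -c (X.fe f 2)) +
      ((if X.o f 3 then c (X.fe f 3) else -c (X.fe f 3)) +
      (if X.o f 4 then c (X.fe f 4) else -c (X.fe f 4))))) := by
  simp only [bsum, bd, List.map_cons, List.map_nil, List.sum_cons, List.sum_nil, add_zero]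

lemma z5 : ((0 : ZMod 5) + 1 = 1) ∧ ((1 : ZMod 5) + 1 = 2) ∧ ((2 : ZMod 5) + 1 = 3) ∧
    ((3 : ZMod 5) + 1 = 4) ∧ ((4 : ZMod 5) + 1 = 0) := by decide

/-- a function on the 5-cycle with zero sum is a difference -/
lemma prim5 {B : Type} [AddCommGroup B] (d : ZMod 5 → B)
    (hd : d 0 + (d 1 + (d 2 + (d 3 + d 4))) = 0) :
    ∃ P : ZMod 5 → B, ∀ k, P (k + 1) - P k = d k := by
  let P : ZMod 5 → B := fun k =>
    (![0, d 0, d 0 + d 1, d 0 + d 1 + d 2, d 0 + d 1 + d 2 + d 3] : Fin 5 → B) k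
  refine ⟨P, ?_⟩
  have p0 : P 0 = 0 := rfl
  have p1 : P 1 = d 0 := rfl
  have p2 : P 2 = d 0 + d 1 := rfl
  have p3 : P 3 = d 0 + d 1 + d 2 := rfl
  have p4 : P 4 = d 0 + d 1 + d 2 + d 3 := rfl
  obtain ⟨z0, z1, z2, z3, z4⟩ := z5
  intro k
  fin_cases k
  · show P (0 + 1) - P 0 = d 0
    rw [z0, p1, p0, sub_zero]
  · show P (1 + 1) - P 1 = d 1
    rw [z1, p2, p1]
    abel
  · show P (2 + 1) - P 2 = d 2
    rw [z2, p3, p2]
    abel
  · show P (3 + 1) - P 3 = d 3
    rw [z3, p4, p3]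
    abel
  · show P (4 + 1) - P 4 = d 4
    rw [z4, p0, p4]
    have : d 4 = (d 0 + (d 1 + (d 2 + (d 3 + d 4)))) - (d 0 + d 1 + d 2 + d 3) := by abel
    rw [this, hd]

theorem flagH1 (hX : X.PH1) : X.graph.FlagH1 := by
  intro B _ g hanti hg
  -- abbreviations
  let ve : X.V0 → X.E0 → B := fun a b => g (Sum.inl a) (Sum.inr (Sum.inl b))
  let vf : X.V0 → X.F0 → B := fun a f => g (Sum.inl a) (Sum.inr (Sum.inr f))
  let ef : X.E0 → X.F0 → B := fun b f => g (Sum.inr (Sum.inl b)) (Sum.inr (Sum.inr f))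
  let c : X.E0 → B := fun e => ve (X.s e) e - ve (X.t e) e
  have htri : ∀ (f : X.F0) (k : ZMod 5) (a : X.V0), (X.s (X.fe f k) = a ∨ X.t (X.fe f k) = a) →
      vf a f = ve a (X.fe f k) + ef (X.fe f k) f := by
    intro f k a ha
    have h1 := (inc_ve_iff a (X.fe f k)).2 ha
    have h2 := (inc_ef_iff (X.fe f k) f).2 ⟨k, rfl⟩
    have h3 : X.graph.adj (Sum.inl a) (Sum.inr (Sum.inr f)) := by
      rw [inc_vf_iff]
      rcases v_of_fe ha with h | h
      · exact ⟨k, h.symm⟩
      · exact ⟨k + 1, h.symm⟩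
    exact hg _ _ _ h1 h2 h3
  have hstep : ∀ (f : X.F0) (k : ZMod 5),
      (if X.o f k then c (X.fe f k) else -c (X.fe f k)) = vf (X.fv f k) f - vf (X.fv f (k + 1)) f := by
    intro f k
    have h1 := htri f k _ (fe_v f k).1
    have h2 := htri f k _ (fe_v f k).2
    rw [h1, h2]
    rcases ends_fe f k with ⟨ho, e1, e2⟩ | ⟨ho, e1, e2⟩
    · rw [ho, if_pos rfl]
      simp only [c]
      rw [e1, e2]
      abel
    · rw [ho]
      simp only [Bool.false_eq_true, if_false, c]
      rw [e1, e2]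
      abel
  obtain ⟨φ, hφ⟩ := hX B c (fun f => by
    obtain ⟨z0, z1, z2, z3, z4⟩ := z5
    rw [bsum_expand, hstep, hstep, hstep, hstep, hstep, z0, z1, z2, z3, z4]
    abel)
  have hconst : ∀ (f : X.F0) (k : ZMod 5),
      φ (X.fv f (k + 1)) + vf (X.fv f (k + 1)) f = φ (X.fv f k) + vf (X.fv f k) f := by
    intro f k
    have h1 := hstep f k
    have h2 := hφ (X.fe f k)
    rcases ends_fe f k with ⟨ho, e1, e2⟩ | ⟨ho, e1, e2⟩
    · rw [ho, if_pos rfl, h2, e1, e2] at h1
      have : φ (X.fv f (k + 1)) + vf (X.fv f (k + 1)) f - (φ (X.fv f k) + vf (X.fv f k) f) =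
          (φ (X.fv f (k + 1)) - φ (X.fv f k)) - (vf (X.fv f k) f - vf (X.fv f (k + 1)) f) := by
        abel
      exact sub_eq_zero.1 (this.trans (sub_eq_zero.2 h1))
    · rw [ho] at h1
      simp only [Bool.false_eq_true, if_false] at h1
      rw [h2, e1, e2] at h1
      have : φ (X.fv f (k + 1)) + vf (X.fv f (k + 1)) f - (φ (X.fv f k) + vf (X.fv f k) f) =
          -(φ (X.fv f k) - φ (X.fv f (k + 1))) - (vf (X.fv f k) f - vf (X.fv f (k + 1)) f) := by
        abel
      exact sub_eq_zero.1 (this.trans (sub_eq_zero.2 h1))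
  have hconst' : ∀ (f : X.F0) (k : ZMod 5),
      φ (X.fv f k) + vf (X.fv f k) f = φ (X.fv f 0) + vf (X.fv f 0) f := by
    intro f
    obtain ⟨z0, z1, z2, z3, z4⟩ := z5
    have k0 := hconst f 0
    have k1 := hconst f 1
    have k2 := hconst f 2
    have k3 := hconst f 3
    rw [z0] at k0
    rw [z1] at k1
    rw [z2] at k2
    rw [z3] at k3
    intro k
    fin_cases k
    · rfl
    · exact k0
    · exact k1.trans k0
    · exact k2.trans (k1.trans k0)
    · exact k3.trans (k2.trans (k1.trans k0))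
  let F : X.graph.V → B := fun v => match v with
    | .inl a => φ a
    | .inr (.inl e) => φ (X.s e) + ve (X.s e) e
    | .inr (.inr f) => φ (X.fv f 0) + vf (X.fv f 0) f
  have key : ∀ v w : X.graph.V, X.graph.adj v w → X.graph.col v < X.graph.col w →
      g v w = F w - F v := by
    rintro (a | b | f) (a' | b' | f') h hlt
    · exact absurd hlt (by simp [graph, dim])
    · show ve a b' = (φ (X.s b') + ve (X.s b') b') - φ a
      rcases (inc_ve_iff a b').1 h with h | h
      · rw [h]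
        abel
      · have h2 := hφ b'
        simp only [c] at h2
        rw [h] at h2
        have : ve a b' - ((φ (X.s b') + ve (X.s b') b') - φ a) =
            (φ a - φ (X.s b')) - (ve (X.s b') b' - ve a b') := by abel
        exact sub_eq_zero.1 (this.trans (sub_eq_zero.2 h2.symm))
    · show vf a f' = (φ (X.fv f' 0) + vf (X.fv f' 0) f') - φ a
      obtain ⟨k, rfl⟩ := (inc_vf_iff a f').1 h
      rw [← hconst' f' k]
      abel
    · exact absurd hlt (by simp [graph, dim])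
    · exact absurd hlt (by simp [graph, dim])
    · show ef b f' = (φ (X.fv f' 0) + vf (X.fv f' 0) f') - (φ (X.s b) + ve (X.s b) b)
      obtain ⟨k, rfl⟩ := (inc_ef_iff b f').1 h
      have h1 := htri f' k _ (Or.inl rfl)
      obtain ⟨j, hj⟩ : ∃ j, X.s (X.fe f' k) = X.fv f' j := by
        rcases ends_fe f' k with ⟨_, e1, _⟩ | ⟨_, e1, _⟩
        · exact ⟨_, e1⟩
        · exact ⟨_, e1⟩
      have h3 := hconst' f' j
      rw [← hj, h1] at h3
      rw [← h3]
      abel
    · exact absurd hlt (by simp [graph, dim])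
    · exact absurd hlt (by simp [graph, dim])
    · exact absurd hlt (by simp [graph, dim])
  refine ⟨F, fun v w h => ?_⟩
  rcases lt_or_gt_of_ne (X.graph.proper v w h) with hlt | hlt
  · exact key v w h hlt
  · rw [hanti w v (X.graph.symm _ _ h), key w v (X.graph.symm _ _ h) hlt]
    abel

theorem flagH2 (hX : X.PH2) : X.graph.FlagH2 := by
  classical
  intro B _ h
  let D : X.V0 → X.E0 → X.F0 → B := fun a b f =>
    if hh : (X.s b = a ∨ X.t b = a) ∧ ∃ k, X.fe f k = b then h (flagTri a b f hh.1 hh.2) else 0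
  have hD : ∀ a b f (h1 : X.s b = a ∨ X.t b = a) (h2 : ∃ k, X.fe f k = b),
      D a b f = h (flagTri a b f h1 h2) := fun a b f h1 h2 => dif_pos ⟨h1, h2⟩
  let H : X.F0 → ZMod 5 → B := fun f k =>
    D (X.fv f k) (X.fe f k) f - D (X.fv f (k + 1)) (X.fe f k) f
  obtain ⟨c, hc⟩ := hX B (fun f => H f 0 + (H f 1 + (H f 2 + (H f 3 + H f 4))))
  -- values on (vertex, edge)
  let ve : X.V0 → X.E0 → B := fun a b => if X.s b = a then c b else 0
  let d : X.F0 → ZMod 5 → B := fun f k =>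
    H f k - (if X.o f k then c (X.fe f k) else -c (X.fe f k))
  have hd : ∀ f, d f 0 + (d f 1 + (d f 2 + (d f 3 + d f 4))) = 0 := by
    intro f
    have h1 := hc f
    rw [bsum_expand] at h1
    have h2 := sub_eq_zero.2 h1.symm
    rw [← h2]
    simp only [d]
    abel
  have hve : ∀ f k, d f k = (D (X.fv f k) (X.fe f k) f - ve (X.fv f k) (X.fe f k)) -
      (D (X.fv f (k + 1)) (X.fe f k) f - ve (X.fv f (k + 1)) (X.fe f k)) := by
    intro f k
    have hne : X.fv f k ≠ X.fv f (k + 1) := by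
      intro he
      have h1 := X.fv_inj f he
      have h2 : (1 : ZMod 5) = 0 := by
        have := congrArg (fun x => x - k) h1
        simpa using this.symm
      exact absurd h2 (by decide)
    simp only [d, H, ve]
    rcases ends_fe f k with ⟨ho, e1, e2⟩ | ⟨ho, e1, e2⟩
    · rw [ho, e1, if_pos rfl, if_pos rfl, if_neg hne]
      abel
    · rw [ho, e1, if_neg (Ne.symm hne), if_pos rfl]
      simp only [Bool.false_eq_true, if_false]
      abel
  choose P hP using fun f => prim5 (fun k => -d f k) (by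
    have h1 := hd f
    have h2 : -d f 0 + (-d f 1 + (-d f 2 + (-d f 3 + -d f 4))) =
        -(d f 0 + (d f 1 + (d f 2 + (d f 3 + d f 4)))) := by abel
    rw [h2, h1, neg_zero])
  -- values on (vertex, face) and (edge, face); here `P f (k+1) - P f k = - d f k`
  let vf : X.V0 → X.F0 → B := fun a f =>
    if hh : ∃ k, X.fv f k = a then -P f hh.choose else 0
  let ef : X.E0 → X.F0 → B := fun b f => if hh : ∃ k, X.fe f k = b then
    (D (X.fv f hh.choose) b f - ve (X.fv f hh.choose) b) - P f hh.choose else 0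
  have hvf : ∀ f k, vf (X.fv f k) f = -P f k := by
    intro f k
    have hex : ∃ j, X.fv f j = X.fv f k := ⟨k, rfl⟩
    have h1 : vf (X.fv f k) f = -P f hex.choose := dif_pos hex
    rw [h1, X.fv_inj f hex.choose_spec]
  have hef : ∀ f k, ef (X.fe f k) f =
      (D (X.fv f k) (X.fe f k) f - ve (X.fv f k) (X.fe f k)) - P f k := by
    intro f k
    have hex : ∃ j, X.fe f j = X.fe f k := ⟨k, rfl⟩
    have h1 : ef (X.fe f k) f = (D (X.fv f hex.choose) (X.fe f k) f -
      ve (X.fv f hex.choose) (X.fe f k)) - P f hex.choose := dif_pos hex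
    rw [h1, X.fe_inj f hex.choose_spec]
  let g : X.graph.V → X.graph.V → B := fun v w => match v, w with
    | .inl a, .inr (.inl b) => ve a b
    | .inl a, .inr (.inr f) => vf a f
    | .inr (.inl b), .inr (.inr f) => ef b f
    | _, _ => 0
  refine ⟨g, fun T => ?_⟩
  obtain ⟨a, b, f, h1, h2, rfl⟩ := tri_cases T
  show h (flagTri a b f h1 h2) = ve a b + ef b f - vf a f
  rw [← hD a b f h1 h2]
  obtain ⟨k, rfl⟩ := h2
  rcases v_of_fe h1 with ha | ha
  · subst ha
    rw [hef f k, hvf f k]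
    abel
  · subst ha
    have h3 := hP f k
    have h4 := hve f k
    rw [hef f k, hvf f (k + 1)]
    have h5 : P f (k + 1) = P f k - d f k := by
      have : P f (k + 1) = (P f (k + 1) - P f k) + P f k := by abel
      rw [this, h3]
      abel
    rw [h5, h4]
    abel

end Penta

end Vale.Agent.P173
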