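import Mathlib

/-!
# P173, part K: unipotent units of `End ℚ (ℚ →₀ ℚ)` (McLain's group)

`E l m` is the elementary endomorphism `single m ↦ single l`. The units `1 + E l m`, `l < m`,
satisfy `1 + E l n = [1 + E l m, 1 + E m n]` and generate a locally unipotent group.
-/

namespace Vale.Agent.P173.McLain

/-- the ring -/
abbrev R : Type := Module.End ℚ (ℚ →₀ ℚ)

/-- elementary endomorphisms -/
noncomputable def E (l m : ℚ) : R := (Finsupp.lsingle l) ∘ₗ (Finsupp.lapply m)

lemma E_apply (l m : ℚ) (f : ℚ →₀ ℚ) : E l m f = Finsupp.single l (f m) := rfl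

lemma E_mul (l m n : ℚ) : E l m * E m n = E l n := by
  ext i
  simp [E_apply, Module.End.mul_apply]

lemma E_mul_ne {l m p n : ℚ} (h : m ≠ p) : E l m * E p n = 0 := by
  refine LinearMap.ext fun f => ?_
  rw [Module.End.mul_apply, E_apply, E_apply, Finsupp.single_apply, if_neg (Ne.symm h),
    Finsupp.single_zero]
  rfl

/-- the unit `1 + E l m` -/
noncomputable def U (l m : ℚ) (h : l < m) : Rˣ where
  val := 1 + E l m
  inv := 1 - E l m
  val_inv := by
    have := E_mul_ne (l := l) (m := m) (p := l) (n := m) h.ne'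
    rw [mul_sub, mul_one, add_mul, one_mul, this]
    abel
  inv_val := by
    have := E_mul_ne (l := l) (m := m) (p := l) (n := m) h.ne'
    rw [mul_add, mul_one, sub_mul, one_mul, this]
    abel

lemma U_ne_one {l m : ℚ} (h : l < m) : U l m h ≠ 1 := by
  intro h1
  have h2 : (1 : R) + E l m = 1 := congrArg Units.val h1
  have h3 : E l m = 0 := by simpa using h2
  have h4 := congrArg (fun f : R => f (Finsupp.single m 1) l) h3
  simp [E_apply] at h4

/-- McLain's commutator relation -/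
lemma U_comm {l m n : ℚ} (h1 : l < m) (h2 : m < n) :
    U l m h1 * U m n h2 * (U l m h1)⁻¹ * (U m n h2)⁻¹ = U l n (h1.trans h2) := by
  apply Units.ext
  change (1 + E l m) * (1 + E m n) * (1 - E l m) * (1 - E m n) = 1 + E l n
  have a1 := E_mul l m n
  have a2 : E l m * E l m = 0 := E_mul_ne h1.ne'
  have a3 : E m n * E l m = 0 := E_mul_ne (h1.trans h2).ne'
  have a4 : E m n * E m n = 0 := E_mul_ne h2.ne'
  have a5 : E l n * E l m = 0 := E_mul_ne (h1.trans h2).ne'
  have a6 : E l n * E m n = 0 := E_mul_ne h2.ne'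
  have b1 : (1 + E l m) * (1 + E m n) = 1 + E l m + E m n + E l n := by
    rw [add_mul, one_mul, mul_add, mul_one, a1]
    abel
  have b2 : (1 + E l m + E m n + E l n) * (1 - E l m) = 1 + E m n + E l n := by
    rw [mul_sub, mul_one, add_mul, add_mul, add_mul, one_mul, a2, a3, a5]
    abel
  have b3 : (1 + E m n + E l n) * (1 - E m n) = 1 + E l n := by
    rw [mul_sub, mul_one, add_mul, add_mul, one_mul, a4, a6]
    abel
  rw [b1, b2, b3]

/-- strictly triangular endomorphisms with indices in `P` -/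
noncomputable def J (P : Finset ℚ) : Submodule ℚ R where
  carrier := {f | ∀ l m, ¬ (l ∈ P ∧ m ∈ P ∧ l < m) → f (Finsupp.single m 1) l = 0}
  add_mem' := by
    intro f g hf hg l m h
    rw [LinearMap.add_apply, Finsupp.add_apply, hf l m h, hg l m h, add_zero]
  zero_mem' := fun _ _ _ => rfl
  smul_mem' := by
    intro c f hf l m h
    rw [LinearMap.smul_apply, Finsupp.smul_apply, hf l m h, smul_zero]

lemma J_mono {P Q : Finset ℚ} (h : P ⊆ Q) : J P ≤ J Q := by
  intro f hf l m hlm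
  exact hf l m fun h' => hlm ⟨h h'.1, h h'.2.1, h'.2.2⟩

lemma E_mem {l m : ℚ} (h : l < m) : E l m ∈ J {l, m} := by
  intro p q hpq
  rw [E_apply, Finsupp.single_apply, Finsupp.single_apply]
  by_cases h1 : l = p
  · subst h1
    by_cases h2 : q = m
    · subst h2
      exact absurd ⟨by simp, by simp, h⟩ hpq
    · rw [if_pos rfl, if_neg h2]
  · rw [if_neg h1]

/-- an endomorphism in coordinates -/
lemma apply_eq (f : R) (v : ℚ →₀ ℚ) (l : ℚ) :
    f v l = v.sum fun m c => c * f (Finsupp.single m 1) l := by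
  conv_lhs => rw [← Finsupp.sum_single v, map_finsuppSum]
  rw [Finsupp.sum_apply]
  refine Finsupp.sum_congr fun m _ => ?_
  have : Finsupp.single m (v m) = v m • Finsupp.single m (1 : ℚ) := by simp
  rw [this, map_smul, Finsupp.smul_apply, smul_eq_mul]

lemma exists_of_apply_ne {f : R} {P : Finset ℚ} (hf : f ∈ J P) {v : ℚ →₀ ℚ} {l : ℚ}
    (h : f v l ≠ 0) : ∃ m, v m ≠ 0 ∧ l ∈ P ∧ m ∈ P ∧ l < m := by
  by_contra hcon
  push Not at hcon
  apply h
  rw [apply_eq]
  refine Finset.sum_eq_zero fun m hm => ?_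
  have hm' : v m ≠ 0 := Finsupp.mem_support_iff.1 hm
  have : ¬ (l ∈ P ∧ m ∈ P ∧ l < m) := fun h' =>
    absurd h'.2.2 (not_lt.2 (hcon m hm' h'.1 h'.2.1))
  change v m * f (Finsupp.single m 1) l = 0
  rw [hf l m this, mul_zero]

lemma J_mul {P : Finset ℚ} {f g : R} (hf : f ∈ J P) (hg : g ∈ J P) : f * g ∈ J P := by
  intro l m h
  by_contra hne
  rw [Module.End.mul_apply] at hne
  obtain ⟨k, hk, h1, h2, h3⟩ := exists_of_apply_ne hf hne
  obtain ⟨q, hq, h4, h5, h6⟩ := exists_of_apply_ne hg hk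
  have hqm : q = m := by
    by_contra hqm
    exact hq (Finsupp.single_eq_of_ne hqm)
  subst hqm
  exact h ⟨h1, h5, h3.trans h6⟩

/-- the number of elements of `P` above `m` -/
def rk (P : Finset ℚ) (m : ℚ) : ℕ := (P.filter fun p => m < p).card

lemma rk_lt {P : Finset ℚ} {l m : ℚ} (hm : m ∈ P) (h : l < m) : rk P m < rk P l := by
  refine Finset.card_lt_card ⟨fun x hx => ?_, fun hsub => ?_⟩
  · rw [Finset.mem_filter] at hx ⊢
    exact ⟨hx.1, h.trans hx.2⟩
  · have : m ∈ P.filter fun p => m < p := hsub (Finset.mem_filter.2 ⟨hm, h⟩)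
    exact lt_irrefl _ (Finset.mem_filter.1 this).2

lemma prod_rk {P : Finset ℚ} (L : List R) (hL : ∀ x ∈ L, x ∈ J P) (v : ℚ →₀ ℚ) (l : ℚ)
    (h : L.prod v l ≠ 0) : L.length ≤ rk P l := by
  induction L generalizing l with
  | nil => exact Nat.zero_le _
  | cons f L ih =>
    rw [List.prod_cons, Module.End.mul_apply] at h
    obtain ⟨m, hm, _, h2, h3⟩ := exists_of_apply_ne (hL f (by simp)) h
    have := ih (fun x hx => hL x (by simp [hx])) m hm
    have h4 := rk_lt h2 h3
    rw [List.length_cons]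
    omega

lemma prod_eq_zero {P : Finset ℚ} (L : List R) (hL : ∀ x ∈ L, x ∈ J P)
    (hlen : P.card + 1 ≤ L.length) : L.prod = 0 := by
  refine LinearMap.ext fun v => Finsupp.ext fun l => ?_
  by_contra h
  have h1 := prod_rk L hL v l h
  have h2 : rk P l ≤ P.card := Finset.card_filter_le _ _
  omega

/-- the units which are unipotent with respect to some `J P` -/
def Good (g : Rˣ) : Prop := ∃ P : Finset ℚ, (g : R) - 1 ∈ J P ∧ ((g⁻¹ : Rˣ) : R) - 1 ∈ J P

lemma good_U {l m : ℚ} (h : l < m) : Good (U l m h) := by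
  refine ⟨{l, m}, ?_, ?_⟩
  · change (1 + E l m) - 1 ∈ _
    rw [add_sub_cancel_left]
    exact E_mem h
  · change (1 - E l m) - 1 ∈ _
    have : (1 : R) - E l m - 1 = - E l m := by abel
    rw [this]
    exact neg_mem (E_mem h)

lemma good_one : Good 1 := ⟨∅, by simp, by simp⟩

lemma good_inv {g : Rˣ} (h : Good g) : Good g⁻¹ := by
  obtain ⟨P, h1, h2⟩ := h
  exact ⟨P, h2, by rwa [inv_inv]⟩

lemma good_mul {g h : Rˣ} (hg : Good g) (hh : Good h) : Good (g * h) := by
  obtain ⟨P, h1, h2⟩ := hg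
  obtain ⟨Q, h3, h4⟩ := hh
  have key : ∀ x y : R, x - 1 ∈ J (P ∪ Q) → y - 1 ∈ J (P ∪ Q) → x * y - 1 ∈ J (P ∪ Q) := by
    intro x y hx hy
    have : x * y - 1 = (x - 1) * (y - 1) + (x - 1) + (y - 1) := by
      rw [sub_mul, mul_sub, mul_one, one_mul]
      abel
    rw [this]
    exact add_mem (add_mem (J_mul hx hy) hx) hy
  have iP : J P ≤ J (P ∪ Q) := J_mono Finset.subset_union_left
  have iQ : J Q ≤ J (P ∪ Q) := J_mono Finset.subset_union_right
  refine ⟨P ∪ Q, ?_, ?_⟩
  · rw [Units.val_mul]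
    exact key _ _ (iP h1) (iQ h3)
  · rw [mul_inv_rev, Units.val_mul]
    exact key _ _ (iQ h4) (iP h2)

lemma good_closure {T : Set Rˣ} (hT : ∀ g ∈ T, Good g) {g : Rˣ}
    (hg : g ∈ Subgroup.closure T) : Good g := by
  induction hg using Subgroup.closure_induction with
  | mem x hx => exact hT x hx
  | one => exact good_one
  | mul x y _ _ hx hy => exact good_mul hx hy
  | inv x _ hx => exact good_inv hx

/-- finitely many elements of a group generated by good units lie in one nilpotent `1 + J` -/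
theorem loc {T : Set Rˣ} (hT : ∀ g ∈ T, Good g) (S : Finset Rˣ)
    (hS : ∀ g ∈ S, g ∈ Subgroup.closure T) :
    ∃ (I : Submodule ℚ R) (n : ℕ), (∀ x ∈ I, ∀ y ∈ I, x * y ∈ I) ∧
      (∀ l : List R, (∀ x ∈ l, x ∈ I) → n ≤ l.length → l.prod = 0) ∧
      ∀ g ∈ S, (g : R) - 1 ∈ I := by
  have h1 : ∀ g ∈ S, ∃ P : Finset ℚ, (g : R) - 1 ∈ J P := fun g hg => by
    obtain ⟨P, hP, _⟩ := good_closure hT (hS g hg)
    exact ⟨P, hP⟩
  have h2 : ∀ g : Rˣ, ∃ P : Finset ℚ, g ∈ S → (g : R) - 1 ∈ J P := fun g => by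
    by_cases hg : g ∈ S
    · obtain ⟨P, hP⟩ := h1 g hg
      exact ⟨P, fun _ => hP⟩
    · exact ⟨∅, fun h => absurd h hg⟩
  choose P hP using h2
  refine ⟨J (S.biUnion P), (S.biUnion P).card + 1, fun x hx y hy => J_mul hx hy,
    fun l hl hn => prod_eq_zero l hl hn, fun g hg => ?_⟩
  exact J_mono (Finset.subset_biUnion_of_mem P hg) (hP g hg)

/-! ### the units `a w` -/

/-- dyadic intervals -/
def iv : List Bool → ℚ × ℚ
  | [] => (0, 1)
  | false :: w => ((iv w).1, ((iv w).1 + (iv w).2) / 2)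
  | true :: w => (((iv w).1 + (iv w).2) / 2, (iv w).2)

lemma iv_lt (w : List Bool) : (iv w).1 < (iv w).2 := by
  induction w with
  | nil => simp [iv]
  | cons b w ih =>
    cases b
    · change (iv w).1 < ((iv w).1 + (iv w).2) / 2
      linarith
    · change ((iv w).1 + (iv w).2) / 2 < (iv w).2
      linarith

/-- the units -/
noncomputable def a (w : List Bool) : Rˣ := U (iv w).1 (iv w).2 (iv_lt w)

lemma a_ne_one (w : List Bool) : a w ≠ 1 := U_ne_one _

lemma a_good (w : List Bool) : Good (a w) := good_U _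

lemma a_comm (w : List Bool) :
    a (false :: w) * a (true :: w) * (a (false :: w))⁻¹ * (a (true :: w))⁻¹ = a w :=
  U_comm (iv_lt (false :: w)) (iv_lt (true :: w))

end Vale.Agent.P173.McLain
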