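import Vale.Agent.Lib.P173.K.Grope
import Vale.Agent.Lib.P173.K.McLain

/-!
# P173, part K: the locally unipotent cocycle on the subdivided pentagonal complex
-/

namespace Vale.Agent.P173

/-! ### cocycles on a coloured graph from sorted data -/

section Sorted

variable {H : Type} [Group H] (K : ColGraph) (γ0 : K.V → K.V → H)

/-- symmetrised cochain -/
def symc (u v : K.V) : H := if K.col u < K.col v then γ0 u v else (γ0 v u)⁻¹

lemma symc_inv (u v : K.V) (h : K.adj u v) : symc K γ0 v u = (symc K γ0 u v)⁻¹ := by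
  have hne := K.proper u v h
  unfold symc
  rcases lt_or_gt_of_ne hne with h1 | h1
  · rw [if_neg (not_lt.2 h1.le), if_pos h1]
  · rw [if_pos h1, if_neg (not_lt.2 h1.le), inv_inv]

lemma symc_coc (hs : ∀ u v w, K.adj u v → K.adj v w → K.adj u w → K.col u < K.col v →
    K.col v < K.col w → γ0 u w = γ0 u v * γ0 v w) (u v w : K.V) (h1 : K.adj u v)
    (h2 : K.adj v w) (h3 : K.adj u w) : symc K γ0 u w = symc K γ0 u v * symc K γ0 v w := by
  have key : ∀ x y z, K.adj x y → K.adj y z → K.adj x z → K.col x < K.col y →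
      K.col y < K.col z → symc K γ0 x z = symc K γ0 x y * symc K γ0 y z := by
    intro x y z a1 a2 a3 b1 b2
    unfold symc
    rw [if_pos b1, if_pos b2, if_pos (b1.trans b2)]
    exact hs x y z a1 a2 a3 b1 b2
  have n1 := K.proper u v h1
  have n2 := K.proper v w h2
  have n3 := K.proper u w h3
  have i1 := symc_inv K γ0 u v h1
  have i2 := symc_inv K γ0 v w h2
  have i3 := symc_inv K γ0 u w h3
  rcases lt_or_gt_of_ne n1 with c1 | c1 <;> rcases lt_or_gt_of_ne n2 with c2 | c2 <;>
    rcases lt_or_gt_of_ne n3 with c3 | c3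
  · exact key u v w h1 h2 h3 c1 c2
  · exact absurd (c1.trans c2) (not_lt.2 c3.le)
  · -- u < w < v
    have := key u w v h3 (K.symm _ _ h2) h1 c3 c2
    rw [this, i2]
    group
  · -- w < u < v
    have := key w u v (K.symm _ _ h3) h1 (K.symm _ _ h2) c3 c1
    rw [i2, i3] at this
    have h4 := congrArg (fun x => x⁻¹) this
    simp only [inv_inv, mul_inv_rev] at h4
    rw [h4]
    group
  · -- v < u < w
    have := key v u w (K.symm _ _ h1) h3 h2 c1 c3
    rw [this, i1]
    group
  · -- v < w < u
    have := key v w u h2 (K.symm _ _ h3) (K.symm _ _ h1) c2 c3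
    rw [i1, i3] at this
    have h4 := congrArg (fun x => x⁻¹) this
    simp only [inv_inv, mul_inv_rev] at h4
    rw [h4]
    group
  · exact absurd (c2.trans c1) (not_lt.2 c3.le)
  · -- w < v < u
    have := key w v u (K.symm _ _ h2) (K.symm _ _ h1) (K.symm _ _ h3) c2 c1
    rw [i1, i2, i3] at this
    have h4 := congrArg (fun x => x⁻¹) this
    simpa [mul_inv_rev] using h4

end Sorted

namespace Grope

open McLain

/-- the edge labelling of the pentagonal complex by units -/
noncomputable def cE : X.E0 → Rˣ := fun e =>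
  match e.2 with
  | none => 1
  | some w => tup (a w)⁻¹ (a w) (a w) (a w)⁻¹ (a w)⁻¹ e.1

/-- transport from the vertex `0` to the vertex `k` along the boundary of the face `f` -/
noncomputable def tau (f : X.F0) (k : X.V0) : Rˣ :=
  tup 1 (cE (0, lab f 0)) (cE (0, lab f 0) * cE (1, lab f 1))
    (cE (0, lab f 0) * cE (1, lab f 1) * cE (2, lab f 2))
    (cE (0, lab f 0) * cE (1, lab f 1) * cE (2, lab f 2) * cE (3, lab f 3)) k

/-- the labelling is flat -/
lemma flat (f : X.F0) : cE (0, lab f 0) * cE (1, lab f 1) * cE (2, lab f 2) *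
    cE (3, lab f 3) * cE (4, lab f 4) = 1 := by
  rcases f with _ | w | w | w | w | w
  · change (1 : Rˣ) * 1 * 1 * 1 * 1 = 1
    group
  · change (a w)⁻¹ * a w * 1 * 1 * 1 = 1
    group
  · change (a w)⁻¹ * 1 * a w * 1 * 1 = 1
    group
  · change 1 * a w * 1 * (a w)⁻¹ * 1 = 1
    group
  · change 1 * a w * 1 * 1 * (a w)⁻¹ = 1
    group
  · change (a w)⁻¹ * a (false :: w) * a (true :: w) * (a (false :: w))⁻¹ *
      (a (true :: w))⁻¹ = 1
    have h := a_comm w
    have h2 : (a w)⁻¹ * a (false :: w) * a (true :: w) * (a (false :: w))⁻¹ *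
      (a (true :: w))⁻¹ = (a w)⁻¹ * (a (false :: w) * a (true :: w) * (a (false :: w))⁻¹ *
      (a (true :: w))⁻¹) := by group
    rw [h2, h, inv_mul_cancel]

lemma tau_step (f : X.F0) (k : ZMod 5) :
    tau f (k + 1 : ZMod 5) = tau f k * cE (k, lab f k) := by
  fin_cases k
  · change cE (0, lab f 0) = 1 * cE (0, lab f 0)
    rw [one_mul]
  · rfl
  · rfl
  · rfl
  · exact (flat f).symm

open Classical in
/-- the sorted cochain on the subdivision -/
noncomputable def g0 : X.graph.V → X.graph.V → Rˣ
  | .inl x, .inr (.inl e) => if x = X.s e then 1 else (cE e)⁻¹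
  | .inl x, .inr (.inr f) => (tau f x)⁻¹
  | .inr (.inl e), .inr (.inr f) => (tau f (X.s e))⁻¹
  | _, _ => 1

lemma g0_s (x : X.V0) (e : X.E0) (h : x = X.s e) : g0 (Sum.inl x) (Sum.inr (Sum.inl e)) = 1 := by
  classical
  exact if_pos h

lemma g0_t (x : X.V0) (e : X.E0) (h : x ≠ X.s e) :
    g0 (Sum.inl x) (Sum.inr (Sum.inl e)) = (cE e)⁻¹ := by
  classical
  exact if_neg h

lemma g0_coc (u v w : X.graph.V) (h1 : X.graph.adj u v) (h2 : X.graph.adj v w)
    (_ : X.graph.adj u w) (c1 : X.graph.col u < X.graph.col v)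
    (c2 : X.graph.col v < X.graph.col w) : g0 u w = g0 u v * g0 v w := by
  rcases u with x | e | f
  · rcases v with x' | e' | f'
    · exact absurd c1 (lt_irrefl _)
    · rcases w with x'' | e'' | f''
      · exact absurd c2 (by change ¬ ((1 : Fin 3) < 0); decide)
      · exact absurd c2 (lt_irrefl _)
      · have hx : X.s e' = x ∨ X.t e' = x := by
          rcases h1 with h | h
          · exact h
          · exact h.elim
        obtain ⟨k, hk⟩ : ∃ k, X.fe f'' k = e' := by
          rcases h2 with h | h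
          · exact h
          · exact h.elim
        change (tau f'' x)⁻¹ = g0 (Sum.inl x) (Sum.inr (Sum.inl e')) * (tau f'' (X.s e'))⁻¹
        by_cases hs : x = X.s e'
        · rw [g0_s x e' hs, one_mul, hs]
        · rw [g0_t x e' hs, ← mul_inv_rev]
          have hx' : X.t e' = x := by
            rcases hx with h | h
            · exact absurd h.symm hs
            · exact h
          subst hk
          rw [← hx']
          exact congrArg (fun y => y⁻¹) (tau_step f'' k)
    · rcases w with x'' | e'' | f''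
      · exact absurd c2 (by change ¬ ((2 : Fin 3) < 0); decide)
      · exact absurd c2 (by change ¬ ((2 : Fin 3) < 1); decide)
      · exact absurd c2 (lt_irrefl _)
  · rcases v with x' | e' | f'
    · exact absurd c1 (by change ¬ ((1 : Fin 3) < 0); decide)
    · exact absurd c1 (lt_irrefl _)
    · rcases w with x'' | e'' | f''
      · exact absurd c2 (by change ¬ ((2 : Fin 3) < 0); decide)
      · exact absurd c2 (by change ¬ ((2 : Fin 3) < 1); decide)
      · exact absurd c2 (lt_irrefl _)
  · rcases v with x' | e' | f'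
    · exact absurd c1 (by change ¬ ((2 : Fin 3) < 0); decide)
    · exact absurd c1 (by change ¬ ((2 : Fin 3) < 1); decide)
    · exact absurd c1 (lt_irrefl _)

/-- all labels are in the group generated by the `a w` -/
lemma cE_mem (e : X.E0) : cE e ∈ Subgroup.closure (Set.range a) := by
  obtain ⟨k, l⟩ := e
  rcases l with _ | w
  · exact one_mem _
  · have h : a w ∈ Subgroup.closure (Set.range a) := Subgroup.subset_closure ⟨w, rfl⟩
    fin_cases k
    · exact inv_mem h
    · exact h
    · exact h
    · exact inv_mem h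
    · exact inv_mem h

lemma tau_mem (f : X.F0) (k : ZMod 5) : tau f k ∈ Subgroup.closure (Set.range a) := by
  fin_cases k
  · exact one_mem _
  · exact cE_mem _
  · exact mul_mem (cE_mem _) (cE_mem _)
  · exact mul_mem (mul_mem (cE_mem _) (cE_mem _)) (cE_mem _)
  · exact mul_mem (mul_mem (mul_mem (cE_mem _) (cE_mem _)) (cE_mem _)) (cE_mem _)

lemma g0_mem (u v : X.graph.V) : g0 u v ∈ Subgroup.closure (Set.range a) := by
  rcases u with x | e | f <;> rcases v with x' | e' | f'
  · exact one_mem _
  · by_cases hs : x = X.s e'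
    · rw [g0_s x e' hs]
      exact one_mem _
    · rw [g0_t x e' hs]
      exact inv_mem (cE_mem _)
  · exact inv_mem (tau_mem _ _)
  · exact one_mem _
  · exact one_mem _
  · exact inv_mem (tau_mem _ _)
  · exact one_mem _
  · exact one_mem _
  · exact one_mem _

/-- the edge `(0, some [])` -/
def e1 : X.graph.V := Sum.inr (Sum.inl ((0, some []) : ZMod 5 × Option Wd))

/-- the edge `(0, none)` -/
def e0 : X.graph.V := Sum.inr (Sum.inl ((0, none) : ZMod 5 × Option Wd))

/-- the vertex `0` -/
def p0 : X.graph.V := Sum.inl (0 : ZMod 5)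

/-- the vertex `1` -/
def p1 : X.graph.V := Sum.inl (1 : ZMod 5)

lemma adj_p0_e1 : X.graph.adj p0 e1 := Or.inl (Or.inl rfl)

lemma adj_e1_p1 : X.graph.adj e1 p1 := Or.inr (Or.inr rfl)

lemma adj_p1_e0 : X.graph.adj p1 e0 := Or.inl (Or.inr rfl)

lemma adj_e0_p0 : X.graph.adj e0 p0 := Or.inr (Or.inl rfl)

lemma p0_ne_p1 : p0 ≠ p1 := by
  intro h
  have h1 : (0 : ZMod 5) = 1 := Sum.inl.inj h
  exact absurd h1 (by decide)

lemma e0_ne_e1 : e0 ≠ e1 := by
  intro h
  have h1 : ((0, none) : ZMod 5 × Option Wd) = (0, some []) := Sum.inl.inj (Sum.inr.inj h)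
  exact absurd (congrArg Prod.snd h1) (by simp)

lemma hol_ne_one : symc X.graph g0 p0 e1 * symc X.graph g0 e1 p1 * symc X.graph g0 p1 e0 *
    symc X.graph g0 e0 p0 ≠ 1 := by
  have c01 : X.graph.col p0 < X.graph.col e1 := by change (0 : Fin 3) < 1; decide
  have c11 : ¬ X.graph.col e1 < X.graph.col p1 := by change ¬ (1 : Fin 3) < 0; decide
  have c10 : X.graph.col p1 < X.graph.col e0 := by change (0 : Fin 3) < 1; decide
  have c00 : ¬ X.graph.col e0 < X.graph.col p0 := by change ¬ (1 : Fin 3) < 0; decide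
  have q1 : symc X.graph g0 p0 e1 = 1 := by
    unfold symc
    rw [if_pos c01]
    exact g0_s _ _ rfl
  have q2 : symc X.graph g0 e1 p1 = (a [])⁻¹ := by
    unfold symc
    rw [if_neg c11]
    have h1 : g0 p1 e1 = ((a [])⁻¹)⁻¹ :=
      g0_t _ _ (fun h => absurd (show (1 : ZMod 5) = 0 from h) (by decide))
    rw [h1, inv_inv]
  have q3 : symc X.graph g0 p1 e0 = 1 := by
    unfold symc
    rw [if_pos c10]
    have h1 : g0 p1 e0 = (1 : Rˣ)⁻¹ :=
      g0_t _ _ (fun h => absurd (show (1 : ZMod 5) = 0 from h) (by decide))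
    rw [h1, inv_one]
  have q4 : symc X.graph g0 e0 p0 = 1 := by
    unfold symc
    rw [if_neg c00]
    have h1 : g0 p0 e0 = 1 := g0_s _ _ rfl
    rw [h1, inv_one]
  rw [q1, q2, q3, q4, one_mul, mul_one, mul_one]
  intro h
  exact a_ne_one [] (inv_eq_one.1 h)

/-- the locally unipotent cocycle -/
noncomputable def uni : UniCocycle X.graph where
  R := R
  γ := symc X.graph g0
  inv v w h := symc_inv X.graph g0 v w h
  coc u v w h1 h2 h3 := symc_coc X.graph g0 g0_coc u v w h1 h2 h3
  loc S hS := by
    have hsub : {g : Rˣ | ∃ v w, X.graph.adj v w ∧ g = symc X.graph g0 v w} ⊆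
        (Subgroup.closure (Set.range a) : Set Rˣ) := by
      rintro g ⟨v, w, _, rfl⟩
      unfold symc
      split_ifs
      · exact g0_mem _ _
      · exact inv_mem (g0_mem _ _)
    have hle : Subgroup.closure {g : Rˣ | ∃ v w, X.graph.adj v w ∧ g = symc X.graph g0 v w} ≤
        Subgroup.closure (Set.range a) := (Subgroup.closure_le _).2 hsub
    refine McLain.loc (T := Set.range a) ?_ S fun g hg => hle (hS g hg)
    rintro g ⟨w, rfl⟩
    exact a_good w
  v0 := p0
  v1 := e1
  v2 := p1
  v3 := e0
  a01 := adj_p0_e1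
  a12 := adj_e1_p1
  a23 := adj_p1_e0
  a30 := adj_e0_p0
  nontriv := hol_ne_one

theorem uni_nonempty : Nonempty (UniCocycle X.graph) := ⟨uni⟩

end Grope

end Vale.Agent.P173
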