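import Vale.Agent.Lib.P173.Interface
import Vale.Agent.Lib.P173.K.Uni
import Vale.Agent.Lib.P173.K.PentaFlag
import Vale.Agent.Lib.P173.K.FlagClq

/-!
# P173, part K: assembly
-/

namespace Vale.Agent.P173

open Grope

theorem partK : PartK := by
  have f0 : X.graph.FlagH0 := Penta.flagH0 ph0
  have f1 : X.graph.FlagH1 := Penta.flagH1 ph1
  have f2 : X.graph.FlagH2 := Penta.flagH2 ph2
  exact ⟨X.graph, countable_graph, ⟨p0⟩, Penta.pure_graph X hV hE,
    ColGraph.flagH0_H0 f0, ColGraph.flagH1_H1 f1, ColGraph.flagH2_H2 f2, f1, uni_nonempty,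
    p0, p1, e0, e1, p0_ne_p1, e0_ne_e1, rfl, rfl, X.graph.symm _ _ adj_e0_p0, adj_p0_e1,
    adj_p1_e0, X.graph.symm _ _ adj_e1_p1⟩

end Vale.Agent.P173
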