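import Vale.Agent.Lib.P173.Setup

/-!
# P173, part K: the explicit pentagonal complex

Vertices `ZMod 5`; for each `i` there are parallel edges `(i, l)` from `i` to `i + 1`, labelled by
`l : Option (List Bool)`. A face is a 5-tuple of labels. The fundamental group is generated by
`a_w` (`w` a binary word) with relations `a_w = [a_{wL}, a_{wR}]`; `x₀(w) = a_w⁻¹`,
`x₁(w) = x₂(w) = a_w`, `x₃(w) = x₄(w) = a_w⁻¹`.
-/

namespace Vale.Agent.P173.Grope

open Vale.Agent.P173

/-- binary words -/
abbrev Wd : Type := List Bool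

/-- the faces -/
inductive Fc : Type
  | star : Fc
  | fA : Wd → Fc
  | fB : Wd → Fc
  | fC : Wd → Fc
  | fD : Wd → Fc
  | fE : Wd → Fc

/-- a 5-tuple as a function on `ZMod 5` -/
def tup {α : Type} (x0 x1 x2 x3 x4 : α) (k : ZMod 5) : α :=
  (![x0, x1, x2, x3, x4] : Fin 5 → α) k

/-- labels of the edges of a face -/
def lab : Fc → ZMod 5 → Option Wd
  | .star => tup none none none none none
  | .fA w => tup (some w) (some w) none none none
  | .fB w => tup (some w) none (some w) none none
  | .fC w => tup none (some w) none (some w) none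
  | .fD w => tup none (some w) none none (some w)
  | .fE w => tup (some w) (some (false :: w)) (some (true :: w)) (some (false :: w))
      (some (true :: w))

lemma ne_add_one (k : ZMod 5) : k ≠ k + 1 := by
  intro h
  have h1 : (1 : ZMod 5) = 0 := by
    have := congrArg (fun x => x - k) h
    simpa using this.symm
  exact absurd h1 (by decide)

/-- the pentagonal complex -/
def X : Penta where
  V0 := ZMod 5
  E0 := ZMod 5 × Option Wd
  F0 := Fc
  s e := e.1
  t e := e.1 + 1
  s_ne_t e := ne_add_one e.1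
  fv _ k := k
  fe f k := (k, lab f k)
  o _ _ := true
  fv_inj _ := fun _ _ h => h
  fe_inj _ := fun _ _ h => (Prod.ext_iff.1 h).1
  s_fe _ _ := by simp
  t_fe _ _ := by simp

lemma bsum_eq {B : Type} [AddCommGroup B] (c : X.E0 → B) (f : X.F0) :
    X.bsum c f = c (0, lab f 0) + (c (1, lab f 1) + (c (2, lab f 2) + (c (3, lab f 3) +
      c (4, lab f 4)))) := by
  simp [Penta.bsum, Penta.bd, X]

theorem ph0 : X.PH0 := by
  intro B _ φ h
  have key : ∀ k : ZMod 5, φ k = φ (0 : ZMod 5) := by
    have h1 : ∀ k : ZMod 5, φ k = φ (k + 1 : ZMod 5) := fun k => h (k, none)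
    intro k
    fin_cases k
    · rfl
    · exact (h1 0).symm
    · exact ((h1 0).trans (h1 1)).symm
    · exact ((h1 0).trans ((h1 1).trans (h1 2))).symm
    · exact ((h1 0).trans ((h1 1).trans ((h1 2).trans (h1 3)))).symm
  intro x y
  rw [key x, key y]

theorem ph1 : X.PH1 := by
  intro B _ c h
  set t : ZMod 5 → B := fun k => c (k, none) with ht
  have hs := (bsum_eq c Fc.star).symm.trans (h Fc.star)
  have hA := fun w => (bsum_eq c (Fc.fA w)).symm.trans (h (Fc.fA w))
  have hB := fun w => (bsum_eq c (Fc.fB w)).symm.trans (h (Fc.fB w))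
  have hC := fun w => (bsum_eq c (Fc.fC w)).symm.trans (h (Fc.fC w))
  have hD := fun w => (bsum_eq c (Fc.fD w)).symm.trans (h (Fc.fD w))
  have hE := fun w => (bsum_eq c (Fc.fE w)).symm.trans (h (Fc.fE w))
  change t 0 + (t 1 + (t 2 + (t 3 + t 4))) = 0 at hs
  change ∀ w, c (0, some w) + (c (1, some w) + (t 2 + (t 3 + t 4))) = 0 at hA
  change ∀ w, c (0, some w) + (t 1 + (c (2, some w) + (t 3 + t 4))) = 0 at hB
  change ∀ w, t 0 + (c (1, some w) + (t 2 + (c (3, some w) + t 4))) = 0 at hC
  change ∀ w, t 0 + (c (1, some w) + (t 2 + (t 3 + c (4, some w)))) = 0 at hD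
  change ∀ w, c (0, some w) + (c (1, some (false :: w)) + (c (2, some (true :: w)) +
    (c (3, some (false :: w)) + c (4, some (true :: w))))) = 0 at hE
  have h0 : ∀ w, c (0, some w) = t 0 := by
    intro w
    have e1 := hE w
    have e2 := hC (false :: w)
    have e3 := hB (true :: w)
    have e4 := hD (true :: w)
    have e5 := hA (true :: w)
    have : c (0, some w) - t 0 =
        (c (0, some w) + (c (1, some (false :: w)) + (c (2, some (true :: w)) +
          (c (3, some (false :: w)) + c (4, some (true :: w))))))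
        - (t 0 + (c (1, some (false :: w)) + (t 2 + (c (3, some (false :: w)) + t 4))))
        - (c (0, some (true :: w)) + (t 1 + (c (2, some (true :: w)) + (t 3 + t 4))))
        - (t 0 + (c (1, some (true :: w)) + (t 2 + (t 3 + c (4, some (true :: w))))))
        + (c (0, some (true :: w)) + (c (1, some (true :: w)) + (t 2 + (t 3 + t 4))))
        + (t 0 + (t 1 + (t 2 + (t 3 + t 4)))) := by abel
    rw [e1, e2, e3, e4, e5, hs] at this
    simpa [sub_eq_zero] using this
  have h1 : ∀ w, c (1, some w) = t 1 := by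
    intro w
    have : c (1, some w) - t 1 = (c (0, some w) + (c (1, some w) + (t 2 + (t 3 + t 4))))
      - (t 0 + (t 1 + (t 2 + (t 3 + t 4)))) := by rw [h0 w]; abel
    rw [hA w, hs] at this
    simpa [sub_eq_zero] using this
  have h2 : ∀ w, c (2, some w) = t 2 := by
    intro w
    have : c (2, some w) - t 2 = (c (0, some w) + (t 1 + (c (2, some w) + (t 3 + t 4))))
      - (t 0 + (t 1 + (t 2 + (t 3 + t 4)))) := by rw [h0 w]; abel
    rw [hB w, hs] at this
    simpa [sub_eq_zero] using this
  have h3 : ∀ w, c (3, some w) = t 3 := by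
    intro w
    have : c (3, some w) - t 3 = (t 0 + (c (1, some w) + (t 2 + (c (3, some w) + t 4))))
      - (t 0 + (t 1 + (t 2 + (t 3 + t 4)))) := by rw [h1 w]; abel
    rw [hC w, hs] at this
    simpa [sub_eq_zero] using this
  have h4 : ∀ w, c (4, some w) = t 4 := by
    intro w
    have : c (4, some w) - t 4 = (t 0 + (c (1, some w) + (t 2 + (t 3 + c (4, some w)))))
      - (t 0 + (t 1 + (t 2 + (t 3 + t 4)))) := by rw [h1 w]; abel
    rw [hD w, hs] at this
    simpa [sub_eq_zero] using this
  refine ⟨fun k : ZMod 5 => tup 0 (t 0) (t 0 + t 1) (t 0 + t 1 + t 2) (t 0 + t 1 + t 2 + t 3) k,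
    ?_⟩
  rintro ⟨k, l⟩
  have hcl : c (k, l) = t k := by
    rcases l with _ | w
    · rfl
    · fin_cases k
      · exact h0 w
      · exact h1 w
      · exact h2 w
      · exact h3 w
      · exact h4 w
  change c (k, l) = tup 0 (t 0) (t 0 + t 1) (t 0 + t 1 + t 2) (t 0 + t 1 + t 2 + t 3) (k + 1) -
    tup 0 (t 0) (t 0 + t 1) (t 0 + t 1 + t 2) (t 0 + t 1 + t 2 + t 3) k
  rw [hcl]
  fin_cases k
  · change t 0 = t 0 - 0
    rw [sub_zero]
  · change t 1 = (t 0 + t 1) - t 0
    abel
  · change t 2 = (t 0 + t 1 + t 2) - (t 0 + t 1)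
    abel
  · change t 3 = (t 0 + t 1 + t 2 + t 3) - (t 0 + t 1 + t 2)
    abel
  · change t 4 = 0 - (t 0 + t 1 + t 2 + t 3)
    rw [eq_sub_iff_add_eq, ← hs]
    abel

theorem ph2 : X.PH2 := by
  intro B _ h
  -- reduced right-hand sides
  set z : B := h Fc.star with hz
  set α : Wd → B := fun w => h (Fc.fA w) - z with hα
  set β : Wd → B := fun w => h (Fc.fB w) - z with hβ
  set γ : Wd → B := fun w => h (Fc.fC w) - z with hγ
  set δ : Wd → B := fun w => h (Fc.fD w) - z with hδ
  set ε : Wd → B := fun w => h (Fc.fE w) - z with hε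
  set x0 : Wd → B := fun w => ε w - γ (false :: w) - β (true :: w) - δ (true :: w) +
    α (true :: w) with hx0
  set x1 : Wd → B := fun w => α w - x0 w with hx1
  set x2 : Wd → B := fun w => β w - x0 w with hx2
  set x3 : Wd → B := fun w => γ w - x1 w with hx3
  set x4 : Wd → B := fun w => δ w - x1 w with hx4
  -- values: index `0` carries the constant `z`
  let c : ZMod 5 × Option Wd → B := fun e =>
    match e.2 with
    | none => tup z 0 0 0 0 e.1
    | some w => tup (z + x0 w) (x1 w) (x2 w) (x3 w) (x4 w) e.1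
  refine ⟨c, ?_⟩
  intro f
  refine (bsum_eq c f).trans ?_
  rcases f with _ | w | w | w | w | w
  · change z + (0 + (0 + (0 + 0))) = z
    abel
  · change (z + x0 w) + (x1 w + (0 + (0 + 0))) = h (Fc.fA w)
    simp only [hx1, hα]
    abel
  · change (z + x0 w) + (0 + (x2 w + (0 + 0))) = h (Fc.fB w)
    simp only [hx2, hβ]
    abel
  · change z + (x1 w + (0 + (x3 w + 0))) = h (Fc.fC w)
    simp only [hx3, hγ]
    abel
  · change z + (x1 w + (0 + (0 + x4 w))) = h (Fc.fD w)
    simp only [hx4, hδ]
    abel
  · change (z + x0 w) + (x1 (false :: w) + (x2 (true :: w) + (x3 (false :: w) +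
      x4 (true :: w)))) = h (Fc.fE w)
    have e0 : x0 w = ε w - γ (false :: w) - β (true :: w) - δ (true :: w) + α (true :: w) := rfl
    have e3 : x3 (false :: w) = γ (false :: w) - x1 (false :: w) := rfl
    have e2 : x2 (true :: w) = β (true :: w) - x0 (true :: w) := rfl
    have e4 : x4 (true :: w) = δ (true :: w) - x1 (true :: w) := rfl
    have e1 : x1 (true :: w) = α (true :: w) - x0 (true :: w) := rfl
    have eE : ε w = h (Fc.fE w) - z := rfl
    rw [e0, e3, e2, e4, e1, eE]
    abel

/-- every vertex is a vertex of a face -/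
theorem hV (v : X.V0) : ∃ f k, X.fv f k = v := ⟨Fc.star, v, rfl⟩

/-- every edge is an edge of a face -/
theorem hE (e : X.E0) : ∃ f k, X.fe f k = e := by
  obtain ⟨k, l⟩ := e
  rcases l with _ | w
  · refine ⟨Fc.star, k, ?_⟩
    change ((k, lab Fc.star k) : ZMod 5 × Option Wd) = (k, none)
    refine Prod.ext rfl ?_
    change lab Fc.star k = none
    fin_cases k <;> rfl
  · obtain ⟨f, hf⟩ : ∃ f : Fc, lab f k = some w := by
      fin_cases k
      · exact ⟨Fc.fA w, rfl⟩
      · exact ⟨Fc.fA w, rfl⟩
      · exact ⟨Fc.fB w, rfl⟩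
      · exact ⟨Fc.fC w, rfl⟩
      · exact ⟨Fc.fD w, rfl⟩
    refine ⟨f, k, ?_⟩
    change ((k, lab f k) : ZMod 5 × Option Wd) = (k, some w)
    rw [hf]

/-- faces as codes -/
def code : Fc → ℕ × Wd
  | .star => (0, [])
  | .fA w => (1, w)
  | .fB w => (2, w)
  | .fC w => (3, w)
  | .fD w => (4, w)
  | .fE w => (5, w)

lemma code_inj : Function.Injective code := by
  intro a b h
  cases a <;> cases b <;> simp_all [code]

instance : Countable Fc := code_inj.countable

instance countable_V0 : Countable X.V0 := inferInstanceAs (Countable (ZMod 5))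

instance countable_E0 : Countable X.E0 := inferInstanceAs (Countable (ZMod 5 × Option Wd))

instance countable_F0 : Countable X.F0 := inferInstanceAs (Countable Fc)

/-- the graph of the subdivision is countable -/
theorem countable_graph : Countable X.graph.V :=
  inferInstanceAs (Countable (X.V0 ⊕ X.E0 ⊕ X.F0))

end Vale.Agent.P173.Grope
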